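import Vale.Agent.P253.CStar.Global
import Mathlib.Analysis.Complex.PhragmenLindelof

/-!
P253: a complex manifold with a `2πi`-periodic holomorphic action of `ℂ` with an attracting fixed
point `p`, and with a holomorphic map to the model space which is an immersion at `p`, is linearized
by the action.
-/

open scoped Manifold ContDiff Topology Bundle
open Set Metric Complex Filter Bundle IsManifold Manifold Vale.Agent.P253.Mfd
  Vale.Agent.P253.CStar

set_option maxSynthPendingDepth 3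
set_option linter.unusedSectionVars false

noncomputable section

namespace Vale.Agent.P253.H565

variable {E : Type*} [NormedAddCommGroup E] [NormedSpace ℂ E] [FiniteDimensional ℂ E]
  {ι : Type*} [Fintype ι] {φ : E ≃L[ℂ] (ι → ℂ)} {m : ι → ℝ}

/-- The linear action splits. -/
theorem norm_LE_re (ζ : ℂ) (z : E) : ‖φ (LE φ m ζ z)‖ = ‖φ (LE φ m (ζ.re : ℂ) z)‖ := by
  have h1 : ζ = (ζ.im : ℂ) * I + (ζ.re : ℂ) := by
    rw [add_comm]; exact (re_add_im ζ).symm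
  conv_lhs => rw [h1]
  rw [LE_add, norm_LE_I]

/-- maximum principle on the half orbits -/
theorem max_half (hm : ∀ j, 0 < m j) {G : E → E} (hG : Differentiable ℂ G) {z : E} {B : ℝ}
    (hB : ∀ θ : ℝ, ‖G (LE φ m (θ * I) z)‖ ≤ B) {ζ : ℂ} (hζ : ζ.re ≤ 0) :
    ‖G (LE φ m ζ z)‖ ≤ B := by
  obtain ⟨C, hC⟩ : ∃ C : ℝ, ∀ w : E, ‖φ w‖ ≤ ‖φ z‖ → ‖G w‖ ≤ C := by
    obtain ⟨C, hC⟩ := (isCompact_coordBall φ ‖φ z‖).exists_bound_of_continuousOn
      hG.continuous.continuousOn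
    exact ⟨C, fun w hw => hC w hw⟩
  have hC2 : ∀ ξ : ℂ, 0 ≤ ξ.re → ‖G (LE φ m (-ξ) z)‖ ≤ C := by
    intro ξ hξ
    apply hC
    rw [norm_LE_re]
    exact norm_LE_nonpos' hm (by simp only [neg_re]; linarith) z
  have hd : Differentiable ℂ (fun ξ : ℂ => G (LE φ m (-ξ) z)) :=
    hG.comp ((differentiable_LE (φ := φ) (m := m) z).comp differentiable_neg)
  have h1 := PhragmenLindelof.right_half_plane_of_bounded_on_real
    (f := fun ξ : ℂ => G (LE φ m (-ξ) z)) (C := B) (z := -ζ) hd.diffContOnCl ?_ ?_ ?_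
    (by simp only [neg_re]; linarith)
  · simp only [neg_neg] at h1
    exact h1
  · refine ⟨1, by norm_num, 0, ?_⟩
    refine Asymptotics.IsBigO.of_bound C ?_
    rw [Filter.eventually_inf_principal]
    refine Filter.Eventually.of_forall fun ξ hξ => ?_
    simp only [zero_mul, Real.exp_zero, norm_one, mul_one]
    exact hC2 ξ (le_of_lt hξ)
  · refine ⟨C, ?_⟩
    rw [Filter.eventually_map]
    filter_upwards [Filter.eventually_ge_atTop (0:ℝ)] with x hx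
    exact hC2 x (by simpa using hx)
  · intro x
    have h2 := hB (-x)
    have e1 : -((x : ℂ) * I) = ((-x : ℝ) : ℂ) * I := by push_cast; ring
    rw [e1]
    exact h2

theorem tendsto_LE_atTop (hm : ∀ j, 0 < m j) (w : E) :
    Tendsto (fun t : ℝ => LE φ m ((-t : ℝ) : ℂ) w) atTop (𝓝 0) := by
  have h1 : Tendsto (fun t : ℝ => φ (LE φ m ((-t : ℝ) : ℂ) w)) atTop (𝓝 0) := by
    rw [tendsto_pi_nhds]
    intro j
    have h2 : Tendsto (fun t : ℝ => exp (((-t : ℝ) : ℂ) * m j)) atTop (𝓝 0) := by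
      rw [tendsto_zero_iff_norm_tendsto_zero]
      have h3 : ∀ t : ℝ, ‖exp (((-t : ℝ) : ℂ) * m j)‖ = Real.exp (-(t * m j)) := by
        intro t
        rw [norm_exp]
        congr 1
        simp
      simp only [h3]
      exact Real.tendsto_exp_neg_atTop_nhds_zero.comp (Tendsto.atTop_mul_const (hm j) tendsto_id)
    have h4 := h2.mul_const (φ w j)
    simp only [zero_mul] at h4
    simp only [LE_coord]
    exact h4
  have h5 := (φ.symm.continuous.tendsto 0).comp h1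
  simp only [map_zero] at h5
  refine h5.congr fun t => ?_
  simp

/-- the orbits are unbounded -/
theorem exists_large (hm : ∀ j, 0 < m j) {G : E → E} (hG : Differentiable ℂ G) {w : E}
    (hw : G w ≠ G 0) (B : ℝ) : ∃ ζ : ℂ, B < ‖G (LE φ m ζ w)‖ := by
  by_contra hcon
  push Not at hcon
  have hd : Differentiable ℂ (fun ξ : ℂ => G (LE φ m ξ w)) :=
    hG.comp (differentiable_LE (φ := φ) (m := m) w)
  have hb : Bornology.IsBounded (range (fun ξ : ℂ => G (LE φ m ξ w))) := by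
    rw [isBounded_iff_forall_norm_le]
    exact ⟨B, by rintro _ ⟨ξ, rfl⟩; exact hcon ξ⟩
  have h1 : ∀ t : ℝ, G (LE φ m ((-t : ℝ) : ℂ) w) = G w := by
    intro t
    have h2 := hd.apply_eq_apply_of_bounded hb ((-t : ℝ) : ℂ) 0
    simpa only [LE_zero] using h2
  have h3 : Tendsto (fun t : ℝ => G (LE φ m ((-t : ℝ) : ℂ) w)) atTop (𝓝 (G 0)) :=
    (hG.continuous.tendsto 0).comp (tendsto_LE_atTop hm w)
  simp only [h1] at h3
  exact hw (tendsto_nhds_unique tendsto_const_nhds h3)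

/-- bounded circles stay in a compact set -/
theorem exists_bound (hm : ∀ j, 0 < m j) {G : E → E} (hG : Differentiable ℂ G) {δ : ℝ}
    (hδ : 0 < δ) (hinj : ∀ w : E, ‖φ w‖ = δ → G w ≠ G 0) (B : ℝ) :
    ∃ R' : ℝ, ∀ z : E, (∀ θ : ℝ, ‖G (LE φ m (θ * I) z)‖ ≤ B) → ‖φ z‖ ≤ R' := by
  set S : Set E := {w | ‖φ w‖ = δ} with hS
  have hSc : IsCompact S := by
    refine (isCompact_coordBall φ δ).of_isClosed_subset
      (isClosed_eq φ.continuous.norm continuous_const) ?_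
    intro w hw
    exact le_of_eq hw
  -- a uniform time
  obtain ⟨T₀, hT₀⟩ : ∃ T₀ : ℝ, ∀ w ∈ S, ∃ ζ : ℂ, ζ.re ≤ T₀ ∧ B < ‖G (LE φ m ζ w)‖ := by
    have h1 : ∀ w ∈ S, ∃ ζ : ℂ, B < ‖G (LE φ m ζ w)‖ := fun w hw =>
      exists_large hm hG (hinj w hw) B
    choose! ζ hζ using h1
    set U : E → Set E := fun w => {w' | B < ‖G (LE φ m (ζ w) w')‖} with hU
    have hUo : ∀ w ∈ S, U w ∈ 𝓝 w := by
      intro w hw
      have hc : Continuous (fun w' : E => ‖G (LE φ m (ζ w) w')‖) :=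
        (hG.continuous.comp (differentiable_LE_right (φ := φ) (m := m) (ζ w)).continuous).norm
      exact (isOpen_lt continuous_const hc).mem_nhds (hζ w hw)
    obtain ⟨t, ht, hcov⟩ := hSc.elim_nhds_subcover U hUo
    rcases t.eq_empty_or_nonempty with hemp | hne
    · refine ⟨0, fun w hw => ?_⟩
      have h2 := hcov hw
      simp [hemp] at h2
    · obtain ⟨w₁, -, hmax⟩ := t.exists_max_image (fun w => (ζ w).re) hne
      refine ⟨(ζ w₁).re, fun w hw => ?_⟩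
      have h2 := hcov hw
      simp only [mem_iUnion] at h2
      obtain ⟨w', hw', hmem⟩ := h2
      exact ⟨ζ w', hmax w' hw', hmem⟩
  refine ⟨max δ (Real.exp (T₀ * ∑ j, m j) * δ), fun z hz => ?_⟩
  by_cases hsmall : ‖φ z‖ ≤ δ
  · exact hsmall.trans (le_max_left _ _)
  · push Not at hsmall
    obtain ⟨T, hT, hTn⟩ := exists_LE_norm_eq hm hδ hsmall
    set w := LE φ m ((-T : ℝ) : ℂ) z with hw
    have hback : LE φ m (T:ℂ) w = z := by
      rw [hw, ← LE_add]; push_cast; rw [add_neg_cancel, LE_zero]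
    have hTT : T ≤ T₀ := by
      by_contra hcon
      push Not at hcon
      obtain ⟨ζ, h1, h2⟩ := hT₀ w hTn
      have h3 : LE φ m ζ w = LE φ m (ζ - T) z := by
        rw [hw, ← LE_add]
        congr 1
        push_cast
        ring
      rw [h3] at h2
      have h4 := max_half (φ := φ) hm hG hz (ζ := ζ - T) (by
        simp only [sub_re, ofReal_re]; linarith)
      linarith
    refine le_trans ?_ (le_max_right _ _)
    rw [← hback]
    refine (norm_LE_nonneg hm hT w).trans ?_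
    rw [hTn]
    have hM0 : 0 ≤ ∑ j, m j := Finset.sum_nonneg fun j _ => (hm j).le
    gcongr

variable {M : Type*} [MetricSpace M] [ChartedSpace E M] [IsManifold 𝓘(ℂ, E) 1 M]
  {ψ : ℂ → M → M} {p : M}

/-- The basin of attraction is everything if there is a holomorphic map to the model space which is
an immersion at the fixed point. -/
theorem source_eq_univ_fun [ProperSpace M] [ConnectedSpace M] {f : M → E}
    (hf : MDifferentiable 𝓘(ℂ, E) 𝓘(ℂ, E) f)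
    (hfp : ∀ v : E, (mfderiv 𝓘(ℂ, E) 𝓘(ℂ, E) f p : E → E) v = 0 → v = 0)
    {ρ : ℝ → M → M} (hc₀ : Continuous fun q : ℝ × M => ρ q.1 q.2)
    (hper : ∀ θ x, ρ (θ + 2 * Real.pi) x = ρ θ x) {e : OpenPartialHomeomorph M E}
    (he : e ∈ maximalAtlas 𝓘(ℂ, E) 1 M) (htgt : e.target = univ)
    (hps : p ∈ e.source) (hep : e p = 0) (hm : ∀ j, 0 < m j)
    (heq : ∀ (θ : ℝ) (z : E), ρ θ (e.symm z) = e.symm (LE φ m (θ * I) z)) :
    e.source = univ := by
  have hCE : CompleteSpace E := FiniteDimensional.complete ℂ E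
  have hesc : Continuous e.symm := by
    rw [← continuousOn_univ, ← htgt]
    exact e.continuousOn_symm
  have hes0 : e.symm 0 = p := by rw [← hep, e.left_inv hps]
  set G : E → E := fun z => f (e.symm z) with hG
  have hsd : ∀ z : E, MDifferentiableAt 𝓘(ℂ, E) 𝓘(ℂ, E) e.symm z := fun z =>
    ((contMDiffOn_symm_of_mem_maximalAtlas he).contMDiffAt
      (e.open_target.mem_nhds (htgt ▸ mem_univ z))).mdifferentiableAt (by simp)
  have hGd : Differentiable ℂ G := fun z => ((hf (e.symm z)).comp z (hsd z)).differentiableAt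
  -- injectivity of the differential of `G` at `0`
  have hed : MDifferentiableAt 𝓘(ℂ, E) 𝓘(ℂ, E) e p :=
    ((contMDiffOn_of_mem_maximalAtlas he).contMDiffAt
      (e.open_source.mem_nhds hps)).mdifferentiableAt (by simp)
  let De : E →L[ℂ] E := mfderiv 𝓘(ℂ, E) 𝓘(ℂ, E) e p
  let Ds : E →L[ℂ] E := mfderiv 𝓘(ℂ, E) 𝓘(ℂ, E) e.symm 0
  let Df : E →L[ℂ] E := mfderiv 𝓘(ℂ, E) 𝓘(ℂ, E) f p
  have hDe : HasMFDerivAt 𝓘(ℂ, E) 𝓘(ℂ, E) e p De := hed.hasMFDerivAt
  have hDs : HasMFDerivAt 𝓘(ℂ, E) 𝓘(ℂ, E) e.symm 0 Ds := (hsd 0).hasMFDerivAt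
  have hDf : HasMFDerivAt 𝓘(ℂ, E) 𝓘(ℂ, E) f (e.symm 0) Df := by
    rw [hes0]; exact (hf p).hasMFDerivAt
  have hcomp1 : De.comp Ds = ContinuousLinearMap.id ℂ E := by
    have h1 : HasMFDerivAt 𝓘(ℂ, E) 𝓘(ℂ, E) e (e.symm 0) De := by rw [hes0]; exact hDe
    have h2 : HasMFDerivAt 𝓘(ℂ, E) 𝓘(ℂ, E) (e ∘ e.symm) 0 (De.comp Ds) := h1.comp 0 hDs
    have h3 : (e ∘ e.symm : E → E) = id := funext fun z => e.right_inv (htgt ▸ mem_univ z)
    rw [h3] at h2
    exact hasMFDerivAt_unique h2 (hasMFDerivAt_id _)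
  have hGder : HasFDerivAt G (Df.comp Ds) 0 := by
    have h1 : HasMFDerivAt 𝓘(ℂ, E) 𝓘(ℂ, E) (f ∘ e.symm) 0 (Df.comp Ds) := hDf.comp 0 hDs
    exact h1.hasFDerivAt
  have hinjL : ∀ v : E, (Df.comp Ds) v = 0 → v = 0 := by
    intro v hv
    have h1 : Ds v = 0 := hfp _ hv
    have h2 := congrArg (fun T : E →L[ℂ] E => T v) hcomp1
    change De (Ds v) = v at h2
    rw [← h2, h1, map_zero]
  -- lower bound near `0`
  obtain ⟨δ, hδ, hne⟩ : ∃ δ > 0, ∀ w : E, ‖φ w‖ = δ → G w ≠ G 0 := by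
    have h1 : ∀ᶠ w in 𝓝[≠] (0 : E), G w ≠ G 0 := by
      have hanti : ∃ c : NNReal, AntilipschitzWith c (Df.comp Ds) := by
        have hker : LinearMap.ker ((Df.comp Ds : E →L[ℂ] E) : E →ₗ[ℂ] E) = ⊥ := by
          rw [LinearMap.ker_eq_bot']
          exact fun v hv => hinjL v hv
        obtain ⟨K, -, hK⟩ := LinearMap.exists_antilipschitzWith _ hker
        exact ⟨K, hK⟩
      exact hGder.eventually_ne hanti
    rw [eventually_nhdsWithin_iff] at h1
    have h2 : ∀ᶠ u in 𝓝 (0 : ι → ℂ), φ.symm u ∈ ({0} : Set E)ᶜ → G (φ.symm u) ≠ G 0 := by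
      have h3 : Tendsto φ.symm (𝓝 0) (𝓝 0) := by
        have := φ.symm.continuous.tendsto 0
        simpa using this
      exact h3.eventually h1
    obtain ⟨δ, hδ, h4⟩ := Metric.nhds_basis_closedBall.eventually_iff.1 h2
    refine ⟨δ, hδ, fun w hw => ?_⟩
    have h5 := h4 (show φ w ∈ closedBall 0 δ by simpa using hw.le)
    rw [ContinuousLinearEquiv.symm_apply_apply] at h5
    apply h5
    rintro rfl
    rw [map_zero, norm_zero] at hw
    exact hδ.ne hw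
  have hclosed : IsClosed e.source := by
    rw [← closure_subset_iff_isClosed]
    intro y hy
    -- the values on the circles through the points near `y`
    obtain ⟨B, hB⟩ : ∃ B : ℝ, ∀ x ∈ closedBall y 1, ∀ θ : ℝ, ‖f (ρ θ x)‖ ≤ B := by
      have hcpt : IsCompact (Icc (0:ℝ) (2 * Real.pi) ×ˢ closedBall y 1) :=
        isCompact_Icc.prod (isCompact_closedBall y 1)
      obtain ⟨B, hB⟩ := hcpt.exists_bound_of_continuousOn
        (f := fun s : ℝ × M => f (ρ s.1 s.2)) (hf.continuous.comp hc₀).continuousOn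
      refine ⟨B, fun x hx θ => ?_⟩
      have hp : Function.Periodic (fun θ : ℝ => ρ θ x) (2 * Real.pi) := fun θ => hper θ x
      obtain ⟨θ', h1, h2⟩ := hp.exists_mem_Ico₀ Real.two_pi_pos θ
      have h3 : ρ θ x = ρ θ' x := h2
      rw [h3]
      exact hB (θ', x) ⟨⟨h1.1, h1.2.le⟩, hx⟩
    obtain ⟨R', hR'⟩ := exists_bound (φ := φ) hm hGd hδ hne B
    have hKc : IsClosed (e.symm '' {z | ‖φ z‖ ≤ R'}) :=
      ((isCompact_coordBall φ R').image hesc).isClosed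
    have hKs : e.symm '' {z | ‖φ z‖ ≤ R'} ⊆ e.source := by
      rintro _ ⟨z, -, rfl⟩
      exact e.map_target (htgt ▸ mem_univ _)
    apply hKs
    by_contra hyK
    have hopen : (e.symm '' {z | ‖φ z‖ ≤ R'})ᶜ ∩ ball y 1 ∈ 𝓝 y :=
      inter_mem (hKc.isOpen_compl.mem_nhds hyK) (ball_mem_nhds y one_pos)
    obtain ⟨x, ⟨hx1, hx2⟩, hx3⟩ := mem_closure_iff_nhds.1 hy _ hopen
    apply hx1
    refine ⟨e x, hR' _ fun θ => ?_, e.left_inv hx3⟩
    have h6 : G (LE φ m (θ * I) (e x)) = f (ρ θ x) := by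
      simp only [hG]
      rw [← heq, e.left_inv hx3]
    rw [h6]
    exact hB x (ball_subset_closedBall hx2) θ
  exact IsClopen.eq_univ ⟨hclosed, e.open_source⟩ ⟨p, hps⟩

/-- the equivariant biholomorphism -/
theorem main_psi_fun [ProperSpace M] [ConnectedSpace M] {f : M → E}
    (hf : MDifferentiable 𝓘(ℂ, E) 𝓘(ℂ, E) f)
    (hfp : ∀ v : E, (mfderiv 𝓘(ℂ, E) 𝓘(ℂ, E) f p : E → E) v = 0 → v = 0)
    (h : HolC E ψ) (hp : ∀ ζ, ψ ζ p = p) (φ : E ≃L[ℂ] (ι → ℂ)) {m : ι → ℝ}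
    (hm : ∀ j, 0 < m j)
    (hw : ∀ (ζ : ℂ) (v : E), (mfderiv 𝓘(ℂ, E) 𝓘(ℂ, E) (ψ ζ) p : E → E) v = LE φ m ζ v) :
    ∃ F : M ≃ₘ^1⟮𝓘(ℂ, E), 𝓘(ℂ, E)⟯ E, F p = 0 ∧
      (∀ v : E, (mfderiv 𝓘(ℂ, E) 𝓘(ℂ, E) F p : E → E) v = v) ∧
      ∀ (ζ : ℂ) (x : M), F (ψ ζ x) = LE φ m ζ (F x) := by
  have hCE : CompleteSpace E := FiniteDimensional.complete ℂ E
  obtain ⟨e, he, htgt, hps, hep, hceq⟩ := exists_basin_chart h hp φ hm hw
  have hc : Continuous (fun q : ℝ × M => ψ (q.1 * I) q.2) := by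
    have h2 : Continuous (fun q : ℝ × M => (((q.1 : ℝ) : ℂ) * I, q.2)) := by fun_prop
    exact h.cont.comp h2
  have hsrc := source_eq_univ_fun hf hfp (ρ := fun θ : ℝ => ψ (θ * I)) hc
    (fun θ x => h.periodic x θ) he htgt hps hep hm hceq
  have hed : ∀ y : M, MDifferentiableAt 𝓘(ℂ, E) 𝓘(ℂ, E) e y := fun y =>
    ((contMDiffOn_of_mem_maximalAtlas he).contMDiffAt
      (e.open_source.mem_nhds (hsrc ▸ mem_univ y))).mdifferentiableAt (by simp)
  have heq : ∀ (ζ : ℂ) (x : M), e (ψ ζ x) = LE φ m ζ (e x) := by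
    intro ζ x
    refine equivariant_of_circle h (F := e) hed (fun θ x => ?_) ζ x
    have h1 := hceq θ (e x)
    rw [e.left_inv (hsrc ▸ mem_univ x)] at h1
    rw [h1, e.right_inv (htgt ▸ mem_univ _)]
  set G : M ≃ₘ^1⟮𝓘(ℂ, E), 𝓘(ℂ, E)⟯ E := chartDiffeo e he hsrc htgt with hG
  set D : E ≃L[ℂ] E := G.mfderivToContinuousLinearEquiv (by simp) p with hD
  have hder : ∀ v : E, (mfderiv 𝓘(ℂ, E) 𝓘(ℂ, E) e p : E → E) v = D v := fun v => rfl
  -- `D` commutes with the linear action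
  have hcomm : ∀ (ζ : ℂ) (u : E), D (LE φ m ζ u) = LE φ m ζ (D u) := by
    intro ζ u
    let De : E →L[ℂ] E := mfderiv 𝓘(ℂ, E) 𝓘(ℂ, E) e p
    let Dr : E →L[ℂ] E := mfderiv 𝓘(ℂ, E) 𝓘(ℂ, E) (ψ ζ) p
    have h1 : HasMFDerivAt 𝓘(ℂ, E) 𝓘(ℂ, E) e p De := (hed p).hasMFDerivAt
    have h1' : HasMFDerivAt 𝓘(ℂ, E) 𝓘(ℂ, E) e (ψ ζ p) De := by
      rw [hp ζ]; exact h1
    have h2 : HasMFDerivAt 𝓘(ℂ, E) 𝓘(ℂ, E) (ψ ζ) p Dr := (h.mdiff ζ p).hasMFDerivAt
    have h3 : HasMFDerivAt 𝓘(ℂ, E) 𝓘(ℂ, E) (e ∘ ψ ζ) p (De.comp Dr) := h1'.comp p h2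
    let L : E →L[ℂ] E := LEL φ m ζ
    have h4 : HasMFDerivAt 𝓘(ℂ, E) 𝓘(ℂ, E) (LE φ m ζ) (e p) L :=
      (LEL φ m ζ).hasFDerivAt.hasMFDerivAt
    have h5 : HasMFDerivAt 𝓘(ℂ, E) 𝓘(ℂ, E) (LE φ m ζ ∘ e) p (L.comp De) := h4.comp p h1
    have h6 : (e ∘ ψ ζ) = (LE φ m ζ ∘ e) := funext fun x => heq ζ x
    rw [h6] at h3
    have h7 : De.comp Dr = L.comp De := hasMFDerivAt_unique h3 h5
    have h9 := congrArg (fun T : E →L[ℂ] E => T u) h7
    have e1 : De (Dr u) = D (LE φ m ζ u) := by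
      have e2 : Dr u = LE φ m ζ u := hw ζ u
      rw [e2]
      exact hder _
    have e2 : L (De u) = LE φ m ζ (D u) := by
      have e3 : De u = D u := hder u
      rw [e3]
      rfl
    calc D (LE φ m ζ u) = De (Dr u) := e1.symm
      _ = L (De u) := h9
      _ = _ := e2
  let F : M ≃ₘ^1⟮𝓘(ℂ, E), 𝓘(ℂ, E)⟯ E :=
    { toFun := fun x => D.symm (e x)
      invFun := fun z => e.symm (D z)
      left_inv := fun x => by
        change e.symm (D (D.symm (e x))) = x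
        rw [ContinuousLinearEquiv.apply_symm_apply, e.left_inv (hsrc ▸ mem_univ x)]
      right_inv := fun z => by
        change D.symm (e (e.symm (D z))) = z
        rw [e.right_inv (htgt ▸ mem_univ _), ContinuousLinearEquiv.symm_apply_apply]
      contMDiff_toFun := by
        have h1 := contMDiffOn_of_mem_maximalAtlas he
        rw [hsrc, contMDiffOn_univ] at h1
        exact (D.symm.contDiff.contMDiff).comp h1
      contMDiff_invFun := by
        have h1 := contMDiffOn_symm_of_mem_maximalAtlas he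
        rw [htgt, contMDiffOn_univ] at h1
        exact h1.comp (D.contDiff.contMDiff) }
  have hFa : ∀ x, F x = D.symm (e x) := fun x => rfl
  refine ⟨F, ?_, fun v => ?_, fun ζ x => ?_⟩
  · rw [hFa, hep, map_zero]
  · have h1 : HasMFDerivAt 𝓘(ℂ, E) 𝓘(ℂ, E) e p (mfderiv 𝓘(ℂ, E) 𝓘(ℂ, E) e p) :=
      (hed p).hasMFDerivAt
    have h2 : HasMFDerivAt 𝓘(ℂ, E) 𝓘(ℂ, E) (D.symm : E → E) (e p) (D.symm : E →L[ℂ] E) :=
      (D.symm : E →L[ℂ] E).hasFDerivAt.hasMFDerivAt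
    have h3 := h2.comp p h1
    have h4 : HasMFDerivAt 𝓘(ℂ, E) 𝓘(ℂ, E) F p
      ((D.symm : E →L[ℂ] E).comp (mfderiv 𝓘(ℂ, E) 𝓘(ℂ, E) e p)) := h3
    rw [h4.mfderiv]
    change D.symm ((mfderiv 𝓘(ℂ, E) 𝓘(ℂ, E) e p : E → E) v) = v
    rw [hder, ContinuousLinearEquiv.symm_apply_apply]
  · rw [hFa, hFa, heq]
    apply D.injective
    rw [ContinuousLinearEquiv.apply_symm_apply, hcomm, ContinuousLinearEquiv.apply_symm_apply]

end Vale.Agent.P253.H565
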