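import Vale.Agent.P253.H565.Fun
import Vale.Agent.P253.S445.Attr

/-!
P253: uniformization from a one-parameter semigroup with an attracting fixed point at which the
holomorphic functions of the manifold give coordinates (no curvature condition at the point).
-/

open scoped Manifold ContDiff Topology Bundle
open Set Metric Complex Filter Bundle IsManifold Manifold Vale.Agent.P253.Mfd
  Vale.Agent.P253.CStar

set_option maxSynthPendingDepth 3
set_option linter.unusedSectionVars false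

noncomputable section

namespace Vale.Agent.P253.H565

open Vale.Agent.P253.R2 Vale.Agent.P253.R2.H445 Vale.Agent.P253.S445

variable {E : Type*} [NormedAddCommGroup E] [NormedSpace ℂ E] [FiniteDimensional ℂ E]
  {M : Type*} [MetricSpace M] [ChartedSpace E M] [IsManifold 𝓘(ℂ, E) 1 M]
  {ρ : ℝ → M → M} {ψ : ℂ → M → M} {p : M}

variable (E) in
/-- `M` has holomorphic functions which give local coordinates at `p`: a holomorphic map from `M`
to `ℂ^n` whose differential at `p` is injective -/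
def HasGlobalCoordinatesAt (p : M) : Prop :=
  ∃ f : M → E, MDifferentiable 𝓘(ℂ, E) 𝓘(ℂ, E) f ∧
    Function.Injective (mfderiv 𝓘(ℂ, E) 𝓘(ℂ, E) f p)

/-- Uniformization for semigroups which extend to `ℂ` and have an attracting fixed point, on
manifolds with holomorphic functions which give coordinates at this point. -/
theorem main_attr_fun [ProperSpace M] [ConnectedSpace M] (hψ : IsHolCFlow E ψ)
    (he : ∀ t : ℝ, 0 ≤ t → ∀ x, ψ t x = ρ t x) (hp : IsAttrFixedPoint E ρ p)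
    (hf : HasGlobalCoordinatesAt E p) :
    ∃ F : M ≃ₘ^1⟮𝓘(ℂ, E), 𝓘(ℂ, E)⟯ E, F p = 0 ∧
      (∀ v : E, (mfderiv 𝓘(ℂ, E) 𝓘(ℂ, E) F p : E → E) v = v) ∧
      ∀ t : ℝ, 0 ≤ t → ∀ x : M, F (ρ t x) =
        (mfderiv 𝓘(ℂ, E) 𝓘(ℂ, E) (ρ t) p : E → E) (F x) := by
  obtain ⟨hfix, b, m, hm, hpinch, hw⟩ := hp
  obtain ⟨f, hf, hfp⟩ := hf
  have hfixψ : ∀ ζ, ψ ζ p = p := fixed_pos hψ (fun t ht => by rw [he t ht, hfix t ht])
  have hρt : ∀ t : ℝ, 0 ≤ t → ∀ v : E, (mfderiv 𝓘(ℂ, E) 𝓘(ℂ, E) (ρ t) p : E → E) v =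
      LE b.equivFun.toContinuousLinearEquiv (fun j => (m j : ℝ)) (-t) v := by
    intro t ht v
    let T : E →L[ℂ] E := mfderiv 𝓘(ℂ, E) 𝓘(ℂ, E) (ρ t) p
    have hT : ∀ j, T (b j) = exp (-(t : ℂ) * ((m j : ℝ) : ℂ)) • b j := by
      intro j
      have h2 : -(t : ℂ) * ((m j : ℝ) : ℂ) = -(t * m j) := by push_cast; ring
      rw [h2]
      exact hw t ht j
    exact eq_LE_of_diag (m := fun j => (m j : ℝ)) hT v
  have hwψ : ∀ (ζ : ℂ) (v : E), (mfderiv 𝓘(ℂ, E) 𝓘(ℂ, E) (ψ ζ) p : E → E) v =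
      LE b.equivFun.toContinuousLinearEquiv (fun j => (m j : ℝ)) (-ζ) v := by
    refine weights_pos hψ hfixψ (fun t ht v => ?_)
    have h1 : ψ t = ρ t := funext fun x => he t ht x
    rw [h1]
    exact hρt t ht v
  have hper := periodic' hψ hfixψ (fun j => by exact_mod_cast hm j)
    (fun j => ⟨m j, by push_cast; rfl⟩) (fun i j => by exact_mod_cast hpinch i j) hwψ
  have hC : HolC E (fun ζ => ψ (-ζ)) := by
    refine ⟨fun x => by rw [neg_zero, hψ.zero], fun s t x => ?_, fun x => ?_, ?_⟩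
    · rw [← hψ.add]
      congr 1
      ring
    · have h1 := hper (ψ (-(2 * Real.pi * I)) x)
      rw [← hψ.add, add_neg_cancel, hψ.zero] at h1
      exact h1.symm
    · have h1 : ContMDiff (𝓘(ℂ, ℂ).prod 𝓘(ℂ, E)) 𝓘(ℂ, ℂ) 1 (fun q : ℂ × M => -q.1) :=
        contDiff_neg.contMDiff.comp contMDiff_fst
      exact hψ.holo.comp (h1.prodMk contMDiff_snd)
  have hfp' : ∀ v : E, (mfderiv 𝓘(ℂ, E) 𝓘(ℂ, E) f p : E → E) v = 0 → v = 0 := by
    intro v hv
    let T : E →L[ℂ] E := mfderiv 𝓘(ℂ, E) 𝓘(ℂ, E) f p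
    have h1 : Function.Injective T := hfp
    apply h1
    rw [map_zero]
    exact hv
  obtain ⟨F, h0, h1, h2⟩ := main_psi_fun hf hfp' hC (fun ζ => hfixψ (-ζ))
    b.equivFun.toContinuousLinearEquiv (m := fun j => (m j : ℝ))
    (fun j => by exact_mod_cast hm j) (fun ζ v => by
      have h3 := hwψ (-ζ) v
      rwa [neg_neg] at h3)
  refine ⟨F, h0, h1, fun t ht x => ?_⟩
  rw [hρt t ht (F x)]
  have h3 := h2 (-t) x
  simp only [neg_neg] at h3
  rw [he t ht] at h3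
  exact h3

/-- biholomorphic to the model space implies global coordinates -/
theorem hasGlobalCoordinatesAt_of_diffeo (F : M ≃ₘ^1⟮𝓘(ℂ, E), 𝓘(ℂ, E)⟯ E) (p : M) :
    HasGlobalCoordinatesAt E p := by
  refine ⟨F, F.contMDiff.mdifferentiable (by simp), ?_⟩
  exact (F.mfderivToContinuousLinearEquiv (by simp) p).injective

section Kahler

variable [IsManifold 𝓘(ℝ, E) ∞ M]
  [RiemannianBundle (fun x : M => TangentSpace 𝓘(ℝ, E) x)]
  [IsContMDiffRiemannianBundle 𝓘(ℝ, E) ∞ E (fun x : M => TangentSpace 𝓘(ℝ, E) x)]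
  [IsRiemannianManifold 𝓘(ℝ, E) M]

/-- the same on complete Riemannian manifolds -/
theorem main_attr_coord [CompleteSpace M] [ConnectedSpace M] (hψ : IsHolCFlow E ψ)
    (he : ∀ t : ℝ, 0 ≤ t → ∀ x, ψ t x = ρ t x) (hp : IsAttrFixedPoint E ρ p)
    (hf : HasGlobalCoordinatesAt E p) :
    ∃ F : M ≃ₘ^1⟮𝓘(ℂ, E), 𝓘(ℂ, E)⟯ E, F p = 0 ∧
      (∀ v : E, (mfderiv 𝓘(ℂ, E) 𝓘(ℂ, E) F p : E → E) v = v) ∧
      ∀ t : ℝ, 0 ≤ t → ∀ x : M, F (ρ t x) =
        (mfderiv 𝓘(ℂ, E) 𝓘(ℂ, E) (ρ t) p : E → E) (F x) := by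
  have hprop : ProperSpace M := properSpace_riemannian E M
  exact main_attr_fun hψ he hp hf

end Kahler

end Vale.Agent.P253.H565
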